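import Vale.Agent.P365.T1c.NormAll376

/-!
# P365-T2: the constants of the NORMAL half for the label laws of the chain, any parameters `P`
-/

set_option linter.all false

namespace P365V4.H376

open P365L P365O P365T1 P365L.TL Matrix Complex MeasureTheory Set
open P365T1.Conc P365T1.Lab37 P365T1.Peel Vale.Agent.P365.J376 P365SH P365T1.Normal
open P365T1.HBasm P365T1.H937
open scoped ComplexConjugate ENNReal

variable {lam E : ℝ} {P : Par} {cc : P.Wn → ℝ}

/-- **the constants of NORMAL** -/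
theorem consts4 (hlam : 0 < lam) (hA : Adm lam (1 / 16384) (qC P) cc (wC P)) (E : ℝ) (r n : ℕ) :
    4 * Cadd (pL (1 / 16384) (qC P)) (DL lam (1 / 16384) (qC P) (wC P)) none (gpL lam P) lam
      ((2 * (lam - lam * (1 / 16384) / 2))⁻¹) (lam - 2 * (lam * (1 / 16384) / 2)) (kapL lam r) E
      (Real.exp (-Num.xx (CK lam E) n)) (2 * ((8 * r : ℕ) : ℝ)) (DmS lam) n ≤
      ENNReal.ofReal (Num.A1R (CK lam E) (DmS lam) r n) ∧
    Ceps (pL (1 / 16384) (qC P)) (DL lam (1 / 16384) (qC P) (wC P)) none (gpL lam P) lam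
      ((2 * (lam - lam * (1 / 16384) / 2))⁻¹) (lam - 2 * (lam * (1 / 16384) / 2)) E
      (Real.exp (-Num.xx (CK lam E) n)) n ≤ ENNReal.ofReal (Num.e1R (CK lam E) n) ∧
    Ctar (pL (1 / 16384) (qC P)) (DL lam (1 / 16384) (qC P) (wC P)) none lam
      ((2 * (lam - lam * (1 / 16384) / 2))⁻¹) (lam - 2 * (lam * (1 / 16384) / 2)) (kapL lam r) E
      (Real.exp (-Num.xx (CK lam E) n)) n ≤ ENNReal.ofReal (Num.K2R (CK lam E) r n) := by
  set c : ℝ := CK lam E with hc
  have hc2 : 2 ≤ c := two_le_CK hlam E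
  set x : ℝ := Num.xx c n with hx
  have hx0 : 2 ≤ x := by
    rw [hx, Num.xx]
    have h1 : (0 : ℝ) ≤ n := Nat.cast_nonneg n
    nlinarith
  have hε : 0 < Real.exp (-x) := Real.exp_pos _
  have k1 := csw_le_exp hA E n
  have k2 : ENNReal.ofReal (Cev E (gpS lam) (gpS lam) * (8 * (lam + 1) * Real.exp (-x))) ≤
      ENNReal.ofReal (Real.exp c * Real.exp (-x)) :=
    ENNReal.ofReal_le_ofReal (cev_le_exp hlam E hε.le)
  have k3 : ENNReal.ofReal (KBm E (lam + 1) (kapL lam r) (Real.exp (-x)) n) ≤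
      ENNReal.ofReal (Real.exp (c * (n + 1) * (1 + (r : ℕ) + x))) :=
    ENNReal.ofReal_le_ofReal (KBm_le_exp hlam E r n (by linarith))
  have k4 : 4 * Csw (pL (1 / 16384) (qC P)) (DL lam (1 / 16384) (qC P) (wC P)) none
      (lam + |E| + 1) ((2 * (lam - lam * (1 / 16384) / 2))⁻¹) (lam - 2 * (lam * (1 / 16384) / 2))
      n ≤ ENNReal.ofReal (4 * Real.exp (c * (n + 1))) := by
    rw [four_eq]
    exact ofReal_mul4 (by norm_num) le_rfl k1
  have e1 : Ceps (pL (1 / 16384) (qC P)) (DL lam (1 / 16384) (qC P) (wC P)) none (gpL lam P) lam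
      ((2 * (lam - lam * (1 / 16384) / 2))⁻¹) (lam - 2 * (lam * (1 / 16384) / 2)) E
      (Real.exp (-x)) n ≤ ENNReal.ofReal (Num.e1R c n) := by
    unfold Ceps Num.e1R
    refine ofReal_mul4 (by positivity) k4 (ofReal_mul4 (by positivity) k2 ?_)
    rw [two_mul_nat_ofReal]
  have e2 : Ctar (pL (1 / 16384) (qC P)) (DL lam (1 / 16384) (qC P) (wC P)) none lam
      ((2 * (lam - lam * (1 / 16384) / 2))⁻¹) (lam - 2 * (lam * (1 / 16384) / 2)) (kapL lam r) E
      (Real.exp (-x)) n ≤ ENNReal.ofReal (Num.K2R c r n) := by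
    unfold Ctar Num.K2R
    refine ofReal_mul4 (by positivity) k4 (ofReal_mul4 (by positivity) k3 ?_)
    rw [nat_ofReal]
  refine ⟨?_, e1, e2⟩
  have hD := DmS_nonneg hlam
  have hpi := Real.pi_pos
  have f1 := Num.e1R_nonneg c n
  have f2 := Num.K2R_nonneg c r n
  have hm8 : (2 * ((8 * r : ℕ) : ℝ)) = 2 * (8 * (r : ℝ)) := by push_cast; ring
  unfold Cadd Num.A1R
  rw [hm8, four_eq]
  refine ofReal_mul4 (by norm_num) le_rfl ?_
  rw [ENNReal.ofReal_add (by positivity) (by positivity)]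
  refine add_le_add (ofReal_mul4 (by positivity) le_rfl ?_) (ofReal_mul4 (by positivity) ?_ le_rfl)
  · rw [← ENNReal.ofReal_pow (by
      have := hA.pL_pos none
      positivity)]
    refine ENNReal.ofReal_le_ofReal (pow_le_pow_left₀ (by
      have := hA.pL_pos none
      positivity) ?_ n)
    have := hA.good_ge
    rw [div_le_iff₀ (by linarith)]
    linarith
  · rw [ENNReal.ofReal_add (by positivity) f2]
    refine add_le_add (ofReal_mul4 f1 e1 ?_) e2
    rw [nat_ofReal]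

/-- the small parameter of the exceptional events -/
theorem exp_xx_le (hlam : 0 < lam) (E : ℝ) (n : ℕ) :
    Real.exp (-Num.xx (CK lam E) n) ≤ 1 / 2 := by
  have hc2 : 2 ≤ CK lam E := two_le_CK hlam E
  have hx0 : 2 ≤ Num.xx (CK lam E) n := by
    rw [Num.xx]
    have h1 : (0 : ℝ) ≤ n := Nat.cast_nonneg n
    nlinarith
  have h1 : Real.exp (-Num.xx (CK lam E) n) ≤ Real.exp (-1) := Real.exp_le_exp.2 (by linarith)
  have h2 : Real.exp (-1) ≤ 1 / 2 := by
    rw [Real.exp_neg, inv_eq_one_div]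
    have : (2 : ℝ) ≤ Real.exp 1 := by
      have := Real.add_one_le_exp (1 : ℝ)
      linarith
    exact one_div_le_one_div_of_le (by norm_num) this
  exact h1.trans h2

/-- the additive constant for a vector of test functions -/
theorem consts4_add (hlam : 0 < lam) (hA : Adm lam (1 / 16384) (qC P) cc (wC P)) (E : ℝ)
    (r n : ℕ) (L : ℝ) :
    ENNReal.ofReal (n * L ^ 2) * Cadd (pL (1 / 16384) (qC P)) (DL lam (1 / 16384) (qC P) (wC P))
      none (gpL lam P) lam ((2 * (lam - lam * (1 / 16384) / 2))⁻¹)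
      (lam - 2 * (lam * (1 / 16384) / 2)) (kapL lam r) E (Real.exp (-Num.xx (CK lam E) n))
      (2 * ((8 * r : ℕ) : ℝ)) (DmS lam) n ≤
      ENNReal.ofReal (L ^ 2 * (n * Num.A1R (CK lam E) (DmS lam) r n)) := by
  have h1 := (consts4 hlam hA E r n).1
  have h2 : ∀ a : ℝ≥0∞, a ≤ 4 * a := fun a => by
    calc a = 1 * a := (one_mul a).symm
      _ ≤ 4 * a := mul_le_mul' (by norm_num) le_rfl
  refine (mul_le_mul' le_rfl ((h2 _).trans h1)).trans (le_of_eq ?_)
  rw [← ENNReal.ofReal_mul (by positivity)]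
  congr 1
  ring

end P365V4.H376
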