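import Vale.Agent.P365.V4.Def

/-!
# P365-T2: the bulk hub `HBe` (domain `X`, abstract profile) from the NORMAL part and the LONG part
-/

set_option linter.all false

namespace P365V4.H376

open P365L P365O P365T1 P365L.TL Matrix Complex MeasureTheory Vale.Agent.P365.J376
open scoped ENNReal

variable {D : V3} {N : ℕ} [NeZero N] {X : Finset (Tor N)} {κ : Type} [Fintype κ]
  {F : κ → Tor N → ℝ} {E : ℝ} {e : (Tor N → D.Λ) → Tor N → ℝ} {i : ℕ}

open Classical in
/-- the sum of the off-resonant energies over a set of pairs (labels, site) -/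
noncomputable def SY (D : V3) (N : ℕ) [NeZero N] (X : Finset (Tor N)) {κ : Type} [Fintype κ]
    (F : κ → Tor N → ℝ) (E : ℝ) (e : (Tor N → D.Λ) → Tor N → ℝ)
    (R : (Tor N → D.Λ) → Tor N → Prop) : ℝ≥0∞ :=
  ∑ l : Tor N → D.Λ, ENNReal.ofReal (∏ x, D.p (l x)) *
    ∑ x, (if x ∈ X ∧ R l x then FY4 D N X F E e l x else 0)

/-- a set `R` of pairs (labels, site) is paid at rate `η / (sb e0 exp (-a))` -/
def Paid (D : V3) (N : ℕ) [NeZero N] (X : Finset (Tor N)) {κ : Type} [Fintype κ]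
    (F : κ → Tor N → ℝ) (E : ℝ) (e : (Tor N → D.Λ) → Tor N → ℝ) (i : ℕ) (sb η c : ℝ)
    (R : (Tor N → D.Λ) → Tor N → Prop) : Prop :=
  SY D N X F E e R ≤ ENNReal.ofReal (η / (sb * (D.e0 i * Real.exp (-(D.a i))))) *
    (FR4 D N X F E e + ENNReal.ofReal c)

theorem HBe_iff {sb ηb c : ℝ} : HBe D N X F E e i sb ηb c ↔
    Paid D N X F E e i sb ηb c (fun l x => D.mov (l x) ∧ ¬ D.cen i l x) := by
  unfold HBe Paid SY
  constructor <;> intro h <;> convert h

theorem SY_mono {R R' : (Tor N → D.Λ) → Tor N → Prop} (h : ∀ l x, x ∈ X → R l x → R' l x) :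
    SY D N X F E e R ≤ SY D N X F E e R' := by
  classical
  unfold SY
  refine Finset.sum_le_sum fun l _ => mul_le_mul' le_rfl (Finset.sum_le_sum fun x _ => ?_)
  by_cases h1 : x ∈ X ∧ R l x
  · rw [if_pos h1, if_pos ⟨h1.1, h l x h1.1 h1.2⟩]
  · rw [if_neg h1]
    exact zero_le

theorem SY_or (R R' : (Tor N → D.Λ) → Tor N → Prop) :
    SY D N X F E e (fun l x => R l x ∨ R' l x) ≤ SY D N X F E e R + SY D N X F E e R' := by
  classical
  unfold SY
  rw [← Finset.sum_add_distrib]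
  refine Finset.sum_le_sum fun l _ => ?_
  rw [← mul_add, ← Finset.sum_add_distrib]
  refine mul_le_mul' le_rfl (Finset.sum_le_sum fun x _ => ?_)
  by_cases h1 : x ∈ X ∧ R l x
  · rw [if_pos h1, if_pos ⟨h1.1, Or.inl h1.2⟩]
    exact le_self_add
  · by_cases h2 : x ∈ X ∧ R' l x
    · rw [if_neg h1, if_pos h2, if_pos ⟨h2.1, Or.inr h2.2⟩, zero_add]
    · rw [if_neg h1, if_neg h2, if_neg]
      · simp
      · rintro ⟨h3, h4 | h4⟩
        · exact h1 ⟨h3, h4⟩
        · exact h2 ⟨h3, h4⟩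

/-- union of two paid sets -/
theorem Paid.or {sb η η' c : ℝ} (hw : 0 ≤ sb * (D.e0 i * Real.exp (-(D.a i)))) (hη : 0 ≤ η)
    (hη' : 0 ≤ η') {R R' : (Tor N → D.Λ) → Tor N → Prop}
    (h : Paid D N X F E e i sb η c R) (h' : Paid D N X F E e i sb η' c R') :
    Paid D N X F E e i sb (η + η') c (fun l x => R l x ∨ R' l x) := by
  unfold Paid at *
  refine (SY_or R R').trans ((add_le_add h h').trans (le_of_eq ?_))
  rw [← add_mul, ← ENNReal.ofReal_add (div_nonneg hη hw) (div_nonneg hη' hw), add_div]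

theorem Paid.mono {sb η η' c c' : ℝ} (hw : 0 ≤ sb * (D.e0 i * Real.exp (-(D.a i))))
    {R R' : (Tor N → D.Λ) → Tor N → Prop} (h : Paid D N X F E e i sb η c R) (hη : η ≤ η')
    (hc : c ≤ c') (hR : ∀ l x, x ∈ X → R' l x → R l x) : Paid D N X F E e i sb η' c' R' := by
  unfold Paid at *
  exact (SY_mono hR).trans (h.trans (mul_le_mul' (ENNReal.ofReal_le_ofReal
    (div_le_div_of_nonneg_right hη hw)) (add_le_add le_rfl (ENNReal.ofReal_le_ofReal hc))))

/-- **(HB) from two parts**: every moving site of `X` which is not a centre is NORMAL or LONG -/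
theorem HBe_of_parts {sb ηN ηL c : ℝ} (hw : 0 ≤ sb * (D.e0 i * Real.exp (-(D.a i))))
    (hηN : 0 ≤ ηN) (hηL : 0 ≤ ηL) {NR LG : (Tor N → D.Λ) → Tor N → Prop}
    (hcov : ∀ l x, x ∈ X → D.mov (l x) → ¬ D.cen i l x → NR l x ∨ LG l x)
    (hN : Paid D N X F E e i sb ηN c NR)
    (hL : Paid D N X F E e i sb ηL c (fun l x => D.mov (l x) ∧ ¬ D.cen i l x ∧ LG l x)) :
    HBe D N X F E e i sb (ηN + ηL) c := by
  rw [HBe_iff]
  exact (hN.or hw hηN hηL hL).mono hw le_rfl le_rfl fun l x hx h =>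
    (hcov l x hx h.1 h.2).imp id fun h' => ⟨h.1, h.2, h'⟩

/-- monotonicity in the constants -/
theorem HBe_mono {sb η η' c c' : ℝ} (hw : 0 ≤ sb * (D.e0 i * Real.exp (-(D.a i))))
    (h : HBe D N X F E e i sb η c) (hη : η ≤ η') (hc : c ≤ c') :
    HBe D N X F E e i sb η' c' := by
  rw [HBe_iff] at h ⊢
  exact h.mono hw hη hc fun _ _ _ h => h

end P365V4.H376
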