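import Vale.Agent.P365.V4.H376.Norm4
import Vale.Agent.P365.V4.Long509
import Vale.Agent.P365.V4.Cov930
import Vale.Agent.P365.T2.ConcG795

/-!
# P365-T2: the bulk hub for the concrete chains

`hb_gen` : every combinatorial datum `P`, free final factors `t` and floor `b`.
`hb_dd` : the chain of base `β`.
-/

set_option linter.all false

namespace P365V4.H376

open P365L P365O P365T1 P365L.TL Matrix Complex MeasureTheory Set
open P365T1.Conc P365T1.Lab37 P365T1.Peel Vale.Agent.P365.J376 P365SH P365T1.Normal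
open P365T1.HBasm P365T1.H937
open scoped ComplexConjugate ENNReal

variable {lam E : ℝ} {P : Par} {cc : P.Wn → ℝ} {a e0 t : ℕ → ℝ} {b : ℝ}

/-- **the LONG half for the concrete chains**, numbers included -/
theorem long_DG (g : ℕ) (hlam : 0 < lam) (E : ℝ) :
    ∃ R : ℕ, 2 ≤ R ∧ ∀ (P : Par) (cc : P.Wn → ℝ) (a e0 t : ℕ → ℝ) (b : ℝ),
      Adm lam (1 / 16384) (qC P) cc (wC P) → ∀ ρ, (DG lam P cc a e0 t b).Ok ρ →
      ∀ i ≤ P.I, R ≤ P.r i →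
      ∀ (N : ℕ) [NeZero N] (X : Finset (Tor N)) (sb sc ε b1 : ℝ)
      (e : (Tor N → (DG lam P cc a e0 t b).Λ) → Tor N → ℝ), 0 < sb → sb ≤ 1 → ε ≤ 1 →
      Prf (DG lam P cc a e0 t b) N i sb sc ε b1 e → ∀ (κ : Type) [Fintype κ]
      (F : κ → Tor N → ℝ) (Λf : ℝ), VecLip F Λf →
      Paid (DG lam P cc a e0 t b) N X F E e i sb (1 / (P.r i : ℝ) ^ g / 2) (Λf ^ 2 * X.card)
        (fun l x => (DG lam P cc a e0 t b).mov (l x) ∧ ¬ (DG lam P cc a e0 t b).cen i l x ∧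
          LONG (DG lam P cc a e0 t b).good (P.r i) (2 * (8 * P.r i)) l x) := by
  set C3v : ℝ := C3 (lam + |E| + 1) (2 / lam) 1 with hC3v
  have hC3 : 0 ≤ C3v := by
    rw [hC3v, C3]
    have := CKq_nonneg (L := lam + |E| + 1) (D0 := 2 / lam) (by positivity)
    positivity
  obtain ⟨R0, hR0⟩ := P365V4.Num376.long_num4 g C3v 2168 hC3 (by norm_num)
  refine ⟨max R0 2, le_max_right _ _, fun P cc a e0 t b hA ρ hok i hi hr N _ X sb sc ε b1 e hsb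
    hsb1 hε he κ _ F Λf hF => ?_⟩
  have hr2 : 2 ≤ P.r i := (le_max_right _ _).trans hr
  have he0 : 0 < e0 i := hok.e0_pos i hi
  have he' : Prf (DG lam P cc a e0 t b) N i sb sc 1 b1 e :=
    he.mono he0.le le_rfl le_rfl hε le_rfl
  have hmain := long_paid (X := X) (F := F) (E := E) (Λf := Λf) hok
    (fun j _ a => pat_ne_none j a) (i := i) hi he' hsb hsb1 hF
    (L := lam + |E| + 1) (D0 := 2 / lam) (by positivity) (by positivity)
    (Dd := DL lam (1 / 16384) (qC P) (wC P)) (fun k => (hA.DL_pos k).le) (fun k => hA.densLe k)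
    hA.sum_mul_le (fun l k z => by
      have h1 := hA.supp k
      have h2 : ∀ᵐ u ∂((DG lam P cc a e0 t b).ν k), u ∈ Icc (-lam) lam := by
        rw [ae_iff]
        exact h1
      filter_upwards [h2] with u hu
      have h3 : |u| ≤ lam := abs_le.2 hu
      have h4 : |u - E| ≤ |u| + |E| := abs_sub _ _
      have h5 := he'.le l z
      linarith)
    (n := P.r i) hr2 (R := 2 * (8 * P.r i))
  refine hmain.mono (by
      have := Real.exp_pos (-((DG lam P cc a e0 t b).a i))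
      have h9 : 0 < (DG lam P cc a e0 t b).e0 i := he0
      positivity) ?_ le_rfl (fun l x _ h => h)
  rw [etaL]
  exact hR0 (P.r i) ((le_max_left _ _).trans hr) (2 * (8 * P.r i)) (P.r i) rfl le_rfl

/-- **(HB) for the concrete chains**: every combinatorial datum, free `t`, `b` -/
theorem hb_gen (g : ℕ) (hlam : 0 < lam) (E : ℝ) :
    ∃ R : ℕ, 2 ≤ R ∧ ∀ (P : Par) (cc : P.Wn → ℝ) (a e0 t : ℕ → ℝ) (b : ℝ),
      Adm lam (1 / 16384) (qC P) cc (wC P) → P.Ok → ∀ ρ, (DG lam P cc a e0 t b).Ok ρ →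
      ∀ i ≤ P.I, R ≤ P.r i → a i = (P.r i : ℝ) ^ 5 → e0 i ≤ Real.exp (-(P.r i : ℝ)) →
      ∀ (N : ℕ) [NeZero N] (X : Finset (Tor N)), 8 * P.r i ∣ N →
      (∀ j ≤ P.I, BlkU (8 * P.r j) X) → ∀ (sb sc ε b1 : ℝ)
      (e : (Tor N → (DG lam P cc a e0 t b).Λ) → Tor N → ℝ), 0 < sb → sb ≤ sc → sb ≤ 1 → ε ≤ 1 →
      Prf (DG lam P cc a e0 t b) N i sb sc ε b1 e → ∀ (κ : Type) [Fintype κ]
      (F : κ → Tor N → ℝ) (Λf : ℝ), VecLip F Λf →
      HBe (DG lam P cc a e0 t b) N X F E e i sb (1 / (P.r i : ℝ) ^ g) (Λf ^ 2 * X.card) := by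
  obtain ⟨R1, hR1, h1⟩ := norm_DG g hlam E
  obtain ⟨R2, hR2, h2⟩ := long_DG g hlam E
  refine ⟨max R1 R2, hR2.trans (le_max_right _ _), fun P cc a e0 t b hA hP ρ hok i hi hr ha he0
    N _ X hN hX sb sc ε b1 e hsb hbc hsb1 hε he κ _ F Λf hF => ?_⟩
  have hN' := h1 P cc a e0 t b hA hP ρ hok i hi ((le_max_left _ _).trans hr) ha he0 N X hN hX
    sb sc ε b1 e hsb hbc hsb1 hε he κ F Λf hF
  have hL' := h2 P cc a e0 t b hA ρ hok i hi ((le_max_right _ _).trans hr) N X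
    sb sc ε b1 e hsb hsb1 hε he κ F Λf hF
  have he0p : 0 < e0 i := hok.e0_pos i hi
  have hη : (1 : ℝ) / (P.r i : ℝ) ^ g = 1 / (P.r i : ℝ) ^ g / 2 + 1 / (P.r i : ℝ) ^ g / 2 := by
    ring
  have hr1 : 1 ≤ P.r i := hP.r_pos i
  rw [hη]
  refine HBe_of_parts (by
      have := Real.exp_pos (-((DG lam P cc a e0 t b).a i))
      have h9 : 0 < (DG lam P cc a e0 t b).e0 i := he0p
      positivity) (by positivity) (by positivity) (fun l x _ _ _ => ?_) hN' hL'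
  exact P365V4.Cov930.coverX (show 3 * P.r i + 3 ≤ 8 * P.r i by omega) le_rfl l x

/-- **(HB) for the chain of base `β`** -/
theorem hb_dd (β : ℕ) [hβ : Fact (2 ≤ β)] (hlam : 0 < lam) (E : ℝ) (g : ℕ) :
    ∃ R : ℕ, 2 ≤ R ∧ ∀ rs ≥ R, ∀ (yf : ℕ → ℤ × ℤ) (Vsf : ℕ → ℤ × ℤ → ℝ) (I : ℕ),
      (∀ r, rs ≤ r → yf r ∈ Xr r) → P365T2.ConcG.AdmS β lam yf Vsf rs I →
      ∀ (N : ℕ) [NeZero N] (X : Finset (Tor N)), ∀ i ≤ I, P365T2.SeqG.mS β rs i ∣ N →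
      (∀ j ≤ I, BlkU (P365T2.SeqG.mS β rs j) X) → ∀ (sb sc ε b1 : ℝ)
      (e : (Tor N → (P365T2.ConcG.DD (P365T2.ConcG.pS β yf rs I)
        (P365T2.ConcG.nuD β lam yf Vsf rs I)).Λ) → Tor N → ℝ),
      0 < sb → sb ≤ sc → sb ≤ 1 → ε ≤ 1 →
      Prf (P365T2.ConcG.DD (P365T2.ConcG.pS β yf rs I) (P365T2.ConcG.nuD β lam yf Vsf rs I))
        N i sb sc ε b1 e → ∀ (κ : Type) [Fintype κ] (F : κ → Tor N → ℝ) (Λf : ℝ), VecLip F Λf →
      HBe (P365T2.ConcG.DD (P365T2.ConcG.pS β yf rs I) (P365T2.ConcG.nuD β lam yf Vsf rs I))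
        N X F E e i sb (1 / (P365T2.SeqG.rr β rs i : ℝ) ^ g) (Λf ^ 2 * X.card) := by
  obtain ⟨R, hR2, hR⟩ := hb_gen g hlam E
  refine ⟨R, hR2, fun rs hrs yf Vsf I hy hA N _ X i hi hN hX sb sc ε b1 e hsb hbc hsb1 hε he κ _
    F Λf hF => ?_⟩
  have hrs2 : 2 ≤ rs := hR2.trans hrs
  exact hR (P365T2.ConcG.PP β yf rs I) (P365T2.ConcG.cS β yf Vsf rs I) (P365T2.SeqG.aS β rs)
    (P365T2.SeqG.e0S β rs) (P365T2.SeqG.tS β rs I) (P365T2.SeqG.bS β rs I) hA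
    (P365T2.ConcG.PP_ok hrs2 hy I) (nuL lam)
    (P365T2.ConcG.DD_ok hrs2 hy (P365T2.ConcG.lw_DD hA)) i hi
    (hrs.trans (P365T2.SeqG.le_rr (by omega) i)) rfl le_rfl N X hN hX sb sc ε b1 e hsb hbc hsb1 hε
    he κ F Λf hF

end P365V4.H376
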