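import Vale.Agent.P365.V4.H376.HBfin
import Vale.Agent.P365.V4.KTop685

/-!
# P365-T2: the hubs of the concrete chain, without hypotheses
-/

set_option linter.all false

namespace P365V4.H376K

open P365V4.K685

open P365L P365L.TL P365SH Vale.Agent.P365.C937 Vale.Agent.P365.J376 MeasureTheory Set
open P365T1 P365T1.Conc P365T1.Lab37 P365T1.Bump P365T2.SeqG P365V4.Free
open P365T2.ConcG (PP QQ DD pS nuD AdmS)
open scoped ENNReal

variable {β : ℕ} [hβ : Fact (2 ≤ β)]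

theorem six_e0S_le {rs : ℕ} (h : 2 ≤ rs) (i : ℕ) : 6 * e0S β rs i ≤ 1 := by
  have h2 := two_le_cast_rr (β := β) h i
  have h3 : e0S β rs i ≤ Real.exp (-2) := by
    unfold e0S
    exact Real.exp_le_exp.2 (by linarith)
  have h4 : (2.7182818283 : ℝ) < Real.exp 1 := Real.exp_one_gt_d9
  have h5 : Real.exp (-2) = (Real.exp 1 ^ 2)⁻¹ := by
    rw [← Real.exp_nat_mul, ← Real.exp_neg]
    norm_num
  have h6 : (6 : ℝ) ≤ Real.exp 1 ^ 2 := by nlinarith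
  have h7 : Real.exp (-2) ≤ 1 / 6 := by
    rw [h5, ← one_div]
    exact one_div_le_one_div_of_le (by norm_num) h6
  linarith

/-- **the bulk hubs of the concrete chain** -/
theorem hBdd {lam : ℝ} (hlam : 0 < lam) (E : ℝ) : HBdd β lam E := by
  intro g
  obtain ⟨R, hR2, hR⟩ := P365V4.H376.hb_dd (lam := lam) β hlam E g
  refine ⟨R, hR2, fun rs hrs yf Vsf I hy hA N _ X hN hX i hi sb sc ε b1 e hsb hbc hsc hε he κ _ F Λf
    _ hF => ?_⟩
  exact hR rs hrs yf Vsf I hy hA N X i hi (hN i hi) hX sb sc ε b1 e hsb hbc (hbc.trans hsc)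
    (hε.trans (six_e0S_le (by omega) i)) he κ F Λf hF

/-- **all hubs of the concrete chain** -/
theorem kTop (β : ℕ) [Fact (2 ≤ β)] {lam E : ℝ} (hlam : 0 < lam) (hE : |E| < 4 + lam) :
    ∃ (lam' : ℝ) (yf : ℕ → ℤ × ℤ) (Vsf : ℕ → ℤ × ℤ → ℝ) (R1 : ℕ), 0 < lam' ∧ lam' < lam ∧
      2 ≤ R1 ∧ (∀ r, R1 ≤ r → |(yf r).1| < r ∧ |(yf r).2| < r) ∧ (∀ r z, |Vsf r z| ≤ lam') ∧
      ∀ A n : ℕ, ∃ R : ℕ, R1 ≤ R ∧ ∀ rs, R ≤ rs → ∀ I : ℕ, AdmS β lam yf Vsf rs I ∧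
        ∀ (N : ℕ) [NeZero N] (X : Finset (Tor N)) (b : ℝ)
          (fl : (PP β yf rs I).Lb → Tor N → ℝ), WOk β rs I A X b fl →
          (Wk β lam yf Vsf rs I X b fl).Ok (nuL lam) ∧ ∀ i ≤ I,
            KStage (Wk β lam yf Vsf rs I X b fl) E i (1 / (rr β rs i : ℝ) ^ n)
              (tF β rs I b (i + 1)) :=
  ktop hlam hE (hBdd hlam E)

end P365V4.H376K
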