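import Vale.Agent.P365.V4.H376.HB
import Vale.Agent.P365.V4.H256.NormDef

/-!
# P365-T2: the NORMAL half of the bulk hub, unweighted form, domain `X`, abstract profile

`NormA4` (256) : the inequality for one fixed good configuration.
`norm_paid` : the NORMAL half is paid.
-/

set_option linter.all false

namespace P365V4.H376

open P365L P365O P365T1 P365L.TL P365T1.Switch P365T1.Peel P365V4.Peel Matrix Complex MeasureTheory
open Vale.Agent.P365.J376 P365V4.H256
open scoped ENNReal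

/-! ### the label sum with a domain -/

section abs

open Finset P365T1.Norm125

variable {ι : Type*} [Fintype ι] [DecidableEq ι] {Λ : Type*} [Fintype Λ] [DecidableEq Λ] {g : Λ}
  (G : Geo ι Λ g)

open Classical in
/-- **the NORMAL sum**: all labels, all sites of `X` -/
theorem norm_absX {X : Finset ι} (hX : ∀ l x, G.NR l x → x ∈ X) {p : Λ → ℝ≥0∞}
    (hsum : ∑ k, p k = 1) (F M : (ι → Λ) → ι → ℝ≥0∞)
    (A1 ε1 K2 c : ℝ≥0∞) (n9 m2 : ℕ) (yc : ι → ι) (pt : ι → ι → Λ) (Cn : (ι → Λ) → ι → Prop)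
    (hcen : ∀ x l, Cn (ins (G.C x) (pt x) l) (yc x))
    (hc : ∀ x, 1 ≤ c * ∏ z ∈ G.C x, p (pt x z))
    (hn9 : ∀ w, (univ.filter fun x => ∃ l, G.NR l x ∧ w ∈ G.Q l x).card ≤ n9)
    (hm2 : ∀ y, (univ.filter fun x => yc x = y).card ≤ m2)
    (h256 : ∀ x l', G.AG l' x → ∀ S : Finset (ι → Λ), G.Fib l' x S →
      ∑ l ∈ S, Pr p l * F l x ≤ Pr p l' * (A1 + ε1 * ∑ w ∈ G.Q l' x, M l' w +
        K2 * M (ins (G.C x) (pt x) l') (yc x))) :
    ∑ l, Pr p l * ∑ x, (if G.NR l x then F l x else 0) ≤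
      A1 * X.card +
        ε1 * n9 * (∑ l, Pr p l * ∑ w, (if l w = g then M l w else 0)) +
        K2 * c * m2 * ∑ l, Pr p l * ∑ y, (if Cn l y then M l y else 0) := by
  have hp1 : p g ≤ 1 := by
    rw [← hsum]
    exact Finset.single_le_sum (f := p) (fun _ _ => bot_le) (Finset.mem_univ g)
  have h1 : ∑ l, Pr p l * ∑ x, (if G.NR l x then F l x else 0) =
      ∑ x, ∑ l ∈ univ.filter (fun l => G.NR l x), Pr p l * F l x := by
    simp_rw [Finset.mul_sum, mul_ite, mul_zero]
    rw [Finset.sum_comm]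
    exact Finset.sum_congr rfl fun x _ => (Finset.sum_filter _ _).symm
  rw [h1]
  have h2 : ∀ x, ∑ l ∈ univ.filter (fun l => G.NR l x), Pr p l * F l x ≤
      (if x ∈ X then A1 else 0) +
        ε1 * (∑ l' ∈ univ.filter (fun l' => G.AG l' x), Pr p l' * ∑ w ∈ G.Q l' x, M l' w) +
        K2 * (c * ∑ l, Pr p l * (if Cn l (yc x) then M l (yc x) else 0)) := by
    intro x
    by_cases hxX : x ∈ X
    swap
    · rw [Finset.filter_eq_empty_iff.2 fun l _ hl => hxX (hX l x hl), Finset.sum_empty]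
      exact zero_le
    rw [if_pos hxX]
    refine (G.regroup x (fun l => Pr p l * F l x) _ (h256 x)).trans ?_
    have e1 : ∀ l', Pr p l' * (A1 + ε1 * ∑ w ∈ G.Q l' x, M l' w +
        K2 * M (ins (G.C x) (pt x) l') (yc x)) =
        A1 * Pr p l' + ε1 * (Pr p l' * ∑ w ∈ G.Q l' x, M l' w) +
          K2 * (Pr p l' * M (ins (G.C x) (pt x) l') (yc x)) := fun l' => by ring
    rw [Finset.sum_congr rfl fun l' _ => e1 l', Finset.sum_add_distrib, Finset.sum_add_distrib,
      ← Finset.mul_sum, ← Finset.mul_sum, ← Finset.mul_sum]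
    refine add_le_add (add_le_add ?_ le_rfl) (mul_le_mul' le_rfl ?_)
    · calc A1 * ∑ l' ∈ univ.filter (fun l' => G.AG l' x), Pr p l' ≤ A1 * ∑ l', Pr p l' :=
          mul_le_mul' le_rfl (Finset.sum_le_sum_of_subset (Finset.filter_subset _ _))
        _ = A1 := by
          have h9 : ∑ l' : ι → Λ, Pr p l' = 1 := by convert sum_Pr (ι := ι) hsum
          rw [h9, mul_one]
    · have h3 := ins_sum (g := g) (T := univ.filter (fun l' => G.AG l' x)) hp1 (hc x)
        (fun l hl z hz => ?_) (fun l => M l (yc x))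
      · refine h3.trans (mul_le_mul' le_rfl ?_)
        calc ∑ l ∈ (univ.filter (fun l' => G.AG l' x)).image (ins (G.C x) (pt x)),
              Pr p l * M l (yc x)
            ≤ ∑ l ∈ (univ.filter (fun l' => G.AG l' x)).image (ins (G.C x) (pt x)),
              Pr p l * (if Cn l (yc x) then M l (yc x) else 0) := by
              refine Finset.sum_le_sum fun l hl => ?_
              obtain ⟨l', -, rfl⟩ := Finset.mem_image.1 hl
              rw [if_pos (hcen x l')]
          _ ≤ _ := Finset.sum_le_sum_of_subset (Finset.subset_univ _)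
      · have h4 := (Finset.mem_filter.1 hl).2
        exact h4.2 z (G.core l x h4.1 hz)
  refine (Finset.sum_le_sum fun x _ => h2 x).trans ?_
  rw [Finset.sum_add_distrib, Finset.sum_add_distrib, ← Finset.mul_sum, ← Finset.mul_sum,
    ← Finset.mul_sum]
  refine add_le_add (add_le_add ?_ ?_) ?_
  · rw [← Finset.sum_filter, Finset.sum_const, nsmul_eq_mul, mul_comm]
    refine mul_le_mul' le_rfl ?_
    rw [Finset.filter_mem_eq_inter, Finset.univ_inter]
  · rw [mul_assoc]
    refine mul_le_mul' le_rfl ?_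
    calc ∑ x, ∑ l' ∈ univ.filter (fun l' => G.AG l' x), Pr p l' * ∑ w ∈ G.Q l' x, M l' w
        = ∑ x, ∑ l, Pr p l * ∑ w, (if G.AG l x ∧ w ∈ G.Q l x then M l w else 0) := by
          refine Finset.sum_congr rfl fun x _ => ?_
          rw [Finset.sum_filter]
          refine Finset.sum_congr rfl fun l _ => ?_
          by_cases h5 : G.AG l x
          · simp only [h5, if_true, true_and]
            rw [← Finset.sum_filter]
            congr 1
            refine Finset.sum_congr ?_ fun _ _ => rfl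
            ext w
            simp
          · simp [h5]
      _ = ∑ l, Pr p l * ∑ w, ∑ x, (if G.AG l x ∧ w ∈ G.Q l x then M l w else 0) := by
          rw [Finset.sum_comm]
          refine Finset.sum_congr rfl fun l _ => ?_
          rw [← Finset.mul_sum, Finset.sum_comm]
      _ ≤ ∑ l, Pr p l * ∑ w, (n9 * (if l w = g then M l w else 0)) := by
          refine Finset.sum_le_sum fun l _ => mul_le_mul' le_rfl (Finset.sum_le_sum fun w _ => ?_)
          rw [← Finset.sum_filter, Finset.sum_const, nsmul_eq_mul]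
          by_cases h6 : l w = g
          · rw [if_pos h6]
            refine mul_le_mul' ?_ le_rfl
            exact_mod_cast (Finset.card_le_card fun x hx => by
              rw [Finset.mem_filter] at hx ⊢
              exact ⟨hx.1, l, hx.2.1.1, hx.2.2⟩).trans (hn9 w)
          · have h7 : univ.filter (fun x => G.AG l x ∧ w ∈ G.Q l x) = ∅ := by
              refine Finset.filter_eq_empty_iff.2 fun x _ hx => h6 (hx.1.2 w hx.2)
            rw [h7]
            simp
      _ = n9 * ∑ l, Pr p l * ∑ w, (if l w = g then M l w else 0) := by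
          rw [Finset.mul_sum]
          refine Finset.sum_congr rfl fun l _ => ?_
          rw [← Finset.mul_sum]
          ring
  · rw [mul_assoc, mul_assoc]
    refine mul_le_mul' le_rfl (mul_le_mul' le_rfl ?_)
    rw [Finset.sum_comm, Finset.mul_sum]
    refine Finset.sum_le_sum fun l _ => ?_
    rw [← Finset.mul_sum, ← mul_assoc, mul_comm (m2 : ℝ≥0∞), mul_assoc]
    refine mul_le_mul' le_rfl ?_
    rw [← Finset.sum_fiberwise_of_maps_to (g := yc) (t := univ) (fun x _ => Finset.mem_univ _),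
      Finset.mul_sum]
    refine Finset.sum_le_sum fun y _ => ?_
    rw [Finset.sum_congr rfl (g := fun _ => if Cn l y then M l y else 0) fun x hx => by
      rw [(Finset.mem_filter.1 hx).2], Finset.sum_const, nsmul_eq_mul]
    refine mul_le_mul' ?_ le_rfl
    exact_mod_cast hm2 y

end abs

variable {D : V3} {N : ℕ} [NeZero N] {X : Finset (Tor N)} {κ : Type} [Fintype κ]
  {F : κ → Tor N → ℝ} {E : ℝ} {e : (Tor N → D.Λ) → Tor N → ℝ} {i : ℕ}

/-- the geometric data -/
noncomputable def geoX (D : V3) {N : ℕ} [NeZero N] (X : Finset (Tor N)) (i : ℕ) (hm : 3 ≤ D.m i)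
    (hX : BlkU (D.m i) X) : Norm125.Geo (Tor N) D.Λ D.good where
  NR l x := x ∈ X ∧ NX D X i l x
  Q l x := QX D X i l x
  K l x := KX D X i l x
  C x := Cor (D.m i) x
  bad l x _ z hz hne := bad_mem_KX hz hne
  core l x h := (h.2.core hm hX h.1).trans KX_sub_QX
  sw l x h := by
    have h1 : ChgX D X i l (swf (QX D X i l x) D.good l) x :=
      ⟨fun z hz => swf_out hz, fun z hz hne => absurd (swf_in hz) hne⟩
    have h2 := h1.stable hm h.2
    exact ⟨⟨h.1, h2.1⟩, h2.2.2.2, h2.2.1⟩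

/-- sum over the good sites -/
theorem good_sum_le (hmov : D.mov D.good) {w0 : ℝ} (hw0 : 0 < w0)
    (hge : ∀ l x, D.mov (l x) → w0 ≤ e l x) [∀ (l : Tor N → D.Λ) w, Decidable (l w = D.good)] :
    ∑ l : Tor N → D.Λ, D.PL l * ∑ w, (if l w = D.good then FM4 D N X F E e l w else 0) ≤
      ENNReal.ofReal (1 / w0) * FR4 D N X F E e := by
  unfold FR4
  rw [Finset.mul_sum]
  refine Finset.sum_le_sum fun l _ => ?_
  rw [mul_left_comm]
  refine mul_le_mul' le_rfl ?_
  rw [Finset.mul_sum]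
  refine Finset.sum_le_sum fun x _ => ?_
  split_ifs with hx
  · rw [← mul_assoc, ← ENNReal.ofReal_mul (by positivity)]
    have h2 : w0 ≤ e l x := hge l x (by rw [hx]; exact hmov)
    refine le_mul_of_one_le_left' ?_
    rw [← ENNReal.ofReal_one]
    refine ENNReal.ofReal_le_ofReal ?_
    rw [one_div, ← div_eq_inv_mul, le_div_iff₀ hw0]
    linarith
  · exact zero_le

/-- sum over the centres -/
theorem cen_sum_le {w0 : ℝ} (hw0 : 0 < w0) (hge : ∀ l x, D.cen i l x → w0 ≤ e l x)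
    [∀ (l : Tor N → D.Λ) w, Decidable (D.cen i l w)] :
    ∑ l : Tor N → D.Λ, D.PL l * ∑ w, (if D.cen i l w then FM4 D N X F E e l w else 0) ≤
      ENNReal.ofReal (1 / w0) * FR4 D N X F E e := by
  unfold FR4
  rw [Finset.mul_sum]
  refine Finset.sum_le_sum fun l _ => ?_
  rw [mul_left_comm]
  refine mul_le_mul' le_rfl ?_
  rw [Finset.mul_sum]
  refine Finset.sum_le_sum fun x _ => ?_
  split_ifs with hx
  · rw [← mul_assoc, ← ENNReal.ofReal_mul (by positivity)]
    have h2 : w0 ≤ e l x := hge l x hx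
    refine le_mul_of_one_le_left' ?_
    rw [← ENNReal.ofReal_one]
    refine ENNReal.ofReal_le_ofReal ?_
    rw [one_div, ← div_eq_inv_mul, le_div_iff₀ hw0]
    linarith
  · exact zero_le

/-- **the NORMAL half of the bulk hub is paid** -/
theorem norm_paid {ρ : Measure ℝ} (h : D.Ok ρ) (hi : i ≤ D.I) {sb sc ε b1 : ℝ}
    (he : Prf D N i sb sc ε b1 e) (hsb : 0 < sb) (hbc : sb ≤ sc) (hm : 3 ≤ D.m i)
    (hX : BlkU (D.m i) X) (hmN : D.m i ∣ N) (hy : D.y i ∈ blk (D.m i)) {q : ℝ} (hq : 0 < q)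
    (hqp : ∀ a ∈ blk (D.m i), q ≤ D.p (D.pat i a)) {A1 ε1 K2 : ℝ} (hA1 : 0 ≤ A1) (hε1 : 0 ≤ ε1)
    (hK2 : 0 ≤ K2)
    (HA : NormA4 D N X F E e i (ENNReal.ofReal A1) (ENNReal.ofReal ε1) (ENNReal.ofReal K2))
    {ηN c : ℝ}
    (h1 : ε1 * (25 * (D.m i : ℝ) ^ 2) +
      K2 * (q⁻¹) ^ (D.m i ^ 2) * (D.m i : ℝ) ^ 2 * Real.exp (-(D.a i)) ≤ ηN)
    (h2 : sb * (D.e0 i * Real.exp (-(D.a i))) * (A1 * X.card) ≤ ηN * c) :
    Paid D N X F E e i sb ηN c (fun l x => NX D X i l x) := by
  classical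
  have hm0 : 0 < D.m i := by omega
  have he0 := h.e0_pos i hi
  have hex : 0 < Real.exp (-(D.a i)) := Real.exp_pos _
  have hsc : 0 < sc := hsb.trans_le hbc
  set G := geoX D X i hm hX with hG
  set w0 : ℝ := sb * (D.e0 i * Real.exp (-(D.a i))) with hw0d
  have hw0 : 0 < w0 := by positivity
  have s2 := norm_absX G (X := X) (fun l x hx => hx.1) (p := fun k => ENNReal.ofReal (D.p k)) (by
      rw [← ENNReal.ofReal_sum_of_nonneg fun k _ => h.p_nonneg k, h.p_sum, ENNReal.ofReal_one])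
    (fun l x => FY4 D N X F E e l x) (fun l x => FM4 D N X F E e l x) (ENNReal.ofReal A1)
    (ENNReal.ofReal ε1) (ENNReal.ofReal K2) (ENNReal.ofReal ((q⁻¹) ^ (D.m i ^ 2)))
    (25 * D.m i ^ 2) (D.m i ^ 2) (fun x => D.yc i x) (fun _ z => D.pat i (lc (D.m i) z))
    (fun l y => D.cen i l y)
    (fun x l => by
      have := V3.cen_ins (D := D) (l := l) (bIn_bi hmN x) hy
      rw [show Norm125.ins (G.C x) (fun z => D.pat i (lc (D.m i) z)) l = D.insx i x l from
        (V3.insx_eq i x l).symm]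
      exact this)
    (fun x => by
      have e1 : ∏ z ∈ G.C x, ENNReal.ofReal (D.p (D.pat i (lc (D.m i) z))) =
          ∏ a ∈ blk (D.m i), ENNReal.ofReal (D.p (D.pat i a)) :=
        prod_bset hm0 (bIn_bi hmN x) (fun a => ENNReal.ofReal (D.p (D.pat i a)))
      rw [e1]
      have hcard : (blk (D.m i)).card = D.m i ^ 2 := by
        rw [blk, Finset.card_product, Finset.card_range, sq]
      rw [ENNReal.ofReal_pow (by positivity), ← hcard, ← Finset.prod_const,
        ← Finset.prod_mul_distrib]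
      refine Finset.one_le_prod' fun a ha => ?_
      rw [← ENNReal.ofReal_mul (by positivity), ← ENNReal.ofReal_one]
      refine ENNReal.ofReal_le_ofReal ?_
      have := hqp a ha
      calc (1 : ℝ) = q⁻¹ * q := (inv_mul_cancel₀ hq.ne').symm
        _ ≤ q⁻¹ * D.p (D.pat i a) := mul_le_mul_of_nonneg_left this (by positivity))
    (fun w => by
      refine (Finset.card_le_card fun x hx => ?_).trans (card_dual_Win hm0 w)
      rw [Finset.mem_filter] at hx ⊢
      obtain ⟨hx1, l, _, hx2⟩ := hx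
      exact ⟨hx1, QX_sub_Win hx2⟩)
    (fun y => by
      refine (Finset.card_le_card fun x hx => ?_).trans (card_block_le (D.m i) hm0 (bi (D.m i) y))
      rw [Finset.mem_filter] at hx ⊢
      refine ⟨hx.1, ?_⟩
      rw [← hx.2, V3.bi_yc hmN hy])
    (fun x l' hl' S hS => by
      have h3 := HA x hl'.1.1 l' hl'.1.2 hl'.2 S hS
      simp only [V3.PL_eq h.p_nonneg] at h3
      rw [V3.insx_eq] at h3
      exact h3)
  simp only [← V3.PL_eq h.p_nonneg] at s2
  have hgd := good_sum_le (D := D) (N := N) (X := X) (F := F) (E := E) (e := e) h.mov_good hw0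
    (fun l x hx => he.mov_ge l x hx)
  have hcd := cen_sum_le (D := D) (N := N) (X := X) (F := F) (E := E) (e := e) (i := i)
    (w0 := sc * D.e0 i) (by positivity) (fun l x hx => he.cen_ge l x hx)
  have hηN : 0 ≤ ηN := le_trans (by positivity) h1
  unfold Paid
  have hSY : SY D N X F E e (fun l x => NX D X i l x) =
      ∑ l, D.PL l * ∑ x, (if G.NR l x then FY4 D N X F E e l x else 0) := by
    unfold SY
    refine Finset.sum_congr rfl fun l _ => congrArg (D.PL l * ·)
      (Finset.sum_congr rfl fun x _ => ?_)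
    by_cases hx : x ∈ X ∧ NX D X i l x
    · rw [if_pos hx, if_pos (show G.NR l x from hx)]
    · rw [if_neg hx, if_neg (show ¬ G.NR l x from hx)]
  rw [hSY]
  refine s2.trans ?_
  set RR := FR4 D N X F E e with hRR
  have t1 : ENNReal.ofReal A1 * (X.card : ℝ≥0∞) ≤ ENNReal.ofReal (ηN / w0) * ENNReal.ofReal c := by
    rw [← ENNReal.ofReal_natCast, ← ENNReal.ofReal_mul hA1, ← ENNReal.ofReal_mul (by positivity)]
    refine ENNReal.ofReal_le_ofReal ?_
    rw [div_mul_eq_mul_div, le_div_iff₀ hw0]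
    linarith
  have t2 : ENNReal.ofReal ε1 * ((25 * D.m i ^ 2 : ℕ) : ℝ≥0∞) *
      (∑ l, D.PL l * ∑ w, (if l w = D.good then FM4 D N X F E e l w else 0)) ≤
      ENNReal.ofReal (ε1 * (25 * (D.m i : ℝ) ^ 2) / w0) * RR := by
    have e1 : ((25 * D.m i ^ 2 : ℕ) : ℝ≥0∞) = ENNReal.ofReal (25 * (D.m i : ℝ) ^ 2) := by
      rw [← ENNReal.ofReal_natCast]
      push_cast
      rfl
    rw [e1, ← ENNReal.ofReal_mul hε1]
    refine (mul_le_mul' le_rfl hgd).trans (le_of_eq ?_)
    rw [← mul_assoc, ← ENNReal.ofReal_mul (by positivity), mul_one_div]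
  have t3 : ENNReal.ofReal K2 * ENNReal.ofReal ((q⁻¹) ^ (D.m i ^ 2)) *
      ((D.m i ^ 2 : ℕ) : ℝ≥0∞) *
      (∑ l, D.PL l * ∑ y, (if D.cen i l y then FM4 D N X F E e l y else 0)) ≤
      ENNReal.ofReal (K2 * (q⁻¹) ^ (D.m i ^ 2) * (D.m i : ℝ) ^ 2 * Real.exp (-(D.a i)) / w0) *
        RR := by
    have e1 : ((D.m i ^ 2 : ℕ) : ℝ≥0∞) = ENNReal.ofReal ((D.m i : ℝ) ^ 2) := by
      rw [← ENNReal.ofReal_natCast]
      push_cast
      rfl
    rw [e1, ← ENNReal.ofReal_mul hK2, ← ENNReal.ofReal_mul (by positivity)]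
    refine (mul_le_mul' le_rfl hcd).trans ?_
    rw [← mul_assoc, ← ENNReal.ofReal_mul (by positivity)]
    refine mul_le_mul' (ENNReal.ofReal_le_ofReal ?_) le_rfl
    rw [mul_one_div, div_le_div_iff₀ (by positivity) hw0, hw0d]
    have hP : 0 ≤ K2 * (q⁻¹) ^ (D.m i ^ 2) * (D.m i : ℝ) ^ 2 := by positivity
    calc K2 * (q⁻¹) ^ (D.m i ^ 2) * (D.m i : ℝ) ^ 2 * (sb * (D.e0 i * Real.exp (-(D.a i))))
        ≤ K2 * (q⁻¹) ^ (D.m i ^ 2) * (D.m i : ℝ) ^ 2 * (sc * (D.e0 i * Real.exp (-(D.a i)))) := by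
          refine mul_le_mul_of_nonneg_left (mul_le_mul_of_nonneg_right hbc (by positivity)) hP
      _ = K2 * (q⁻¹) ^ (D.m i ^ 2) * (D.m i : ℝ) ^ 2 * Real.exp (-(D.a i)) * (sc * D.e0 i) := by
          ring
  calc _ ≤ ENNReal.ofReal (ηN / w0) * ENNReal.ofReal c +
        ENNReal.ofReal (ε1 * (25 * (D.m i : ℝ) ^ 2) / w0) * RR +
        ENNReal.ofReal (K2 * (q⁻¹) ^ (D.m i ^ 2) * (D.m i : ℝ) ^ 2 * Real.exp (-(D.a i)) / w0) *
          RR := by
        refine add_le_add (add_le_add t1 ?_) ?_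
        · convert t2
        · convert t3
    _ = ENNReal.ofReal (ηN / w0) * ENNReal.ofReal c +
        ENNReal.ofReal ((ε1 * (25 * (D.m i : ℝ) ^ 2) +
          K2 * (q⁻¹) ^ (D.m i ^ 2) * (D.m i : ℝ) ^ 2 * Real.exp (-(D.a i))) / w0) * RR := by
        rw [add_assoc, ← add_mul, ← ENNReal.ofReal_add (by positivity) (by positivity), add_div]
    _ ≤ ENNReal.ofReal (ηN / w0) * ENNReal.ofReal c + ENNReal.ofReal (ηN / w0) * RR := by
        refine add_le_add le_rfl (mul_le_mul' (ENNReal.ofReal_le_ofReal ?_) le_rfl)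
        exact div_le_div_of_nonneg_right h1 hw0.le
    _ = _ := by ring

end P365V4.H376
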