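import Vale.Agent.P365.V4.H376.Const4
import Vale.Agent.P365.V4.H376.NormW4
import Vale.Agent.P365.V4.H256.NormalV4
import Vale.Agent.P365.V4.Num376

/-!
# P365-T2: the NORMAL half of the bulk hub for the concrete chains

`DG lam P cc a e0 t b` : the datum with the label laws of `Lab37`, arbitrary combinatorial
parameters `P`, arbitrary exponents, strengths, factors and floor.
-/

set_option linter.all false

namespace P365V4.H376

open P365L P365O P365T1 P365L.TL Matrix Complex MeasureTheory Set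
open P365T1.Conc P365T1.Lab37 P365T1.Peel Vale.Agent.P365.J376 P365SH P365T1.Normal
open P365T1.HBasm P365T1.H937
open scoped ComplexConjugate ENNReal

/-- the datum with the label laws of `Lab37` -/
noncomputable abbrev DG (lam : ℝ) (P : Par) (cc : P.Wn → ℝ) (a e0 t : ℕ → ℝ) (b : ℝ) : V3 :=
  mk P ⟨a, e0, t, b, pL (1 / 16384) (qC P), nuT lam (1 / 16384) (qC P) cc (wC P)⟩

variable {lam E : ℝ} {P : Par} {cc : P.Wn → ℝ} {a e0 t : ℕ → ℝ} {b : ℝ}

/-- **(A)** for the concrete chains -/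
theorem normA_DG (hlam : 0 < lam) (hA : Adm lam (1 / 16384) (qC P) cc (wC P)) (hP : P.Ok)
    {i : ℕ} (hi : i ≤ P.I) (E : ℝ) {N : ℕ} [NeZero N] (hN : 8 * P.r i ∣ N)
    {X : Finset (Tor N)} (hX : ∀ j ≤ P.I, BlkU (8 * P.r j) X) {sb sc ε b1 : ℝ}
    {e : (Tor N → (DG lam P cc a e0 t b).Λ) → Tor N → ℝ} (hε : ε ≤ 1)
    (he : Prf (DG lam P cc a e0 t b) N i sb sc ε b1 e) {κ : Type} [Fintype κ]
    {F : κ → Tor N → ℝ} {Λf : ℝ} (hF : VecLip F Λf) {n : ℕ} (hn : n = 9 * (8 * P.r i) ^ 2) :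
    P365V4.H256.NormA4 (DG lam P cc a e0 t b) N X F E e i
      (ENNReal.ofReal (Λf ^ 2 * (n * Num.A1R (CK lam E) (DmS lam) (P.r i) n)))
      (ENNReal.ofReal (Num.e1R (CK lam E) n))
      (ENNReal.ofReal (Num.K2R (CK lam E) (P.r i) n)) := by
  have hi' : i < P.I + 1 := Nat.lt_succ_of_le hi
  have hr1 : 1 ≤ P.r i := hP.r_pos i
  have hN2 : 2 ≤ N := by
    have h1 := Nat.le_of_dvd (Nat.pos_of_ne_zero (NeZero.ne N)) hN
    omega
  have hybl : (DG lam P cc a e0 t b).y i ∈ blk ((DG lam P cc a e0 t b).m i) := by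
    obtain ⟨h1, h2⟩ := y_lt hP i
    exact Finset.mem_product.2 ⟨Finset.mem_range.2 h1, Finset.mem_range.2 h2⟩
  have hmain := P365V4.H256.normA4 (D := DG lam P cc a e0 t b) (N := N) (X := X) (F := F)
    (E := E) (e := e) (i := i) (fun k => hA.prob k) (nlaw hA hi') hi he hε hX hN2
    (show 3 ≤ 8 * P.r i by omega) hN hybl (fun j _ a => pat_ne_none j a)
    (fun a => Or.inr ⟨a, rfl⟩) (Dm := DmS lam) (hA.densLe none)
    (by
      show DensLe (DmS lam) (nuT lam (1 / 16384) (qC P) cc (wC P) (P.pat i (P.y i)))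
      rw [pat_y hP hi']
      exact hA.densLe (P.mark ⟨i, hi'⟩))
    (Real.exp_pos (-Num.xx (CK lam E) n)) (exp_xx_le hlam E n) hF
  have hmi : (DG lam P cc a e0 t b).m i = 8 * P.r i := rfl
  rw [hmi, ← hn] at hmain
  obtain ⟨_, e1, e2⟩ := consts4 hlam hA E (P.r i) n
  exact hmain.mono (consts4_add hlam hA E (P.r i) n Λf) e1 e2

/-- masses of the pattern labels -/
theorem p_pat_DG {i : ℕ} (hi : i ≤ P.I) (a' : Loc) :
    (DG lam P cc a e0 t b).p ((DG lam P cc a e0 t b).pat i a') =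
      Real.exp (-(3 * (P.r i : ℝ))) := by
  show pL (1 / 16384) (qC P) (P.pat i a') = _
  unfold Par.pat
  rw [dif_pos (show i < P.I + 1 from Nat.lt_succ_of_le hi)]
  split_ifs with h2
  · rfl
  · rfl

/-- **the NORMAL half for the concrete chains**, numbers included -/
theorem norm_DG (g : ℕ) (hlam : 0 < lam) (E : ℝ) :
    ∃ R : ℕ, 1 ≤ R ∧ ∀ (P : Par) (cc : P.Wn → ℝ) (a e0 t : ℕ → ℝ) (b : ℝ),
      Adm lam (1 / 16384) (qC P) cc (wC P) → P.Ok → ∀ ρ, (DG lam P cc a e0 t b).Ok ρ →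
      ∀ i ≤ P.I, R ≤ P.r i → a i = (P.r i : ℝ) ^ 5 → e0 i ≤ Real.exp (-(P.r i : ℝ)) →
      ∀ (N : ℕ) [NeZero N] (X : Finset (Tor N)), 8 * P.r i ∣ N →
      (∀ j ≤ P.I, BlkU (8 * P.r j) X) → ∀ (sb sc ε b1 : ℝ)
      (e : (Tor N → (DG lam P cc a e0 t b).Λ) → Tor N → ℝ), 0 < sb → sb ≤ sc → sb ≤ 1 → ε ≤ 1 →
      Prf (DG lam P cc a e0 t b) N i sb sc ε b1 e → ∀ (κ : Type) [Fintype κ]
      (F : κ → Tor N → ℝ) (Λf : ℝ), VecLip F Λf →
      Paid (DG lam P cc a e0 t b) N X F E e i sb (1 / (P.r i : ℝ) ^ g / 2) (Λf ^ 2 * X.card)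
        (fun l x => P365V4.Peel.NX (DG lam P cc a e0 t b) X i l x) := by
  have hc : 0 ≤ CK lam E := by
    have := two_le_CK hlam E
    linarith
  obtain ⟨R, hR⟩ := Filter.eventually_atTop.1
    (P365V4.Num376.normal_num4 g hc (DmS_nonneg hlam))
  refine ⟨max R 1, le_max_right _ _, fun P cc a e0 t b hA hP ρ hok i hi hr ha he0 N _ X hN hX
    sb sc ε b1 e hsb hbc hsb1 hε he κ _ F Λf hF => ?_⟩
  obtain ⟨h1, h2⟩ := hR (P.r i) ((le_max_left _ _).trans hr) (9 * (8 * P.r i) ^ 2) rfl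
  set n : ℕ := 9 * (8 * P.r i) ^ 2 with hn
  have hr1 : 1 ≤ P.r i := hP.r_pos i
  have hybl : (DG lam P cc a e0 t b).y i ∈ blk ((DG lam P cc a e0 t b).m i) := by
    obtain ⟨h1, h2⟩ := y_lt hP i
    exact Finset.mem_product.2 ⟨Finset.mem_range.2 h1, Finset.mem_range.2 h2⟩
  have hA1 : 0 ≤ (n : ℝ) * Num.A1R (CK lam E) (DmS lam) (P.r i) n :=
    mul_nonneg (Nat.cast_nonneg _) (P365V4.Num376.A1R_nonneg (DmS_nonneg hlam) _ _)
  have f1 := Num.e1R_nonneg (CK lam E) n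
  have f2 := Num.K2R_nonneg (CK lam E) (P.r i) n
  have he0p : 0 < e0 i := hok.e0_pos i hi
  refine norm_paid (D := DG lam P cc a e0 t b) hok hi he hsb hbc
    (show 3 ≤ 8 * P.r i by omega) (hX i hi) hN hybl (q := Real.exp (-(3 * (P.r i : ℝ))))
    (Real.exp_pos _) (fun a' _ => (p_pat_DG hi a').ge)
    (A1 := Λf ^ 2 * (n * Num.A1R (CK lam E) (DmS lam) (P.r i) n)) (by positivity) f1 f2
    (normA_DG hlam hA hP hi E hN hX hε he hF hn) ?_ ?_
  · have e1 : (Real.exp (-(3 * (P.r i : ℝ))))⁻¹ = Real.exp (3 * (P.r i : ℝ)) := by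
      rw [← Real.exp_neg, neg_neg]
    have e2 : (((DG lam P cc a e0 t b).m i : ℕ) : ℝ) = 8 * (P.r i : ℝ) := by
      show ((8 * P.r i : ℕ) : ℝ) = _
      push_cast
      ring
    have e3 : (DG lam P cc a e0 t b).a i = (P.r i : ℝ) ^ 5 := ha
    have e4 : (DG lam P cc a e0 t b).m i = 8 * P.r i := rfl
    rw [e1, e2, e3, e4]
    have h3 : 0 ≤ Num.e1R (CK lam E) n * (25 * (8 * (P.r i : ℝ)) ^ 2) +
        Num.K2R (CK lam E) (P.r i) n * Real.exp (3 * (P.r i : ℝ)) ^ ((8 * P.r i) ^ 2) *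
          (8 * (P.r i : ℝ)) ^ 2 * Real.exp (-((P.r i : ℝ) ^ 5)) := by positivity
    linarith
  · have e3 : (DG lam P cc a e0 t b).a i = (P.r i : ℝ) ^ 5 := ha
    show sb * (e0 i * Real.exp (-(a i))) * _ ≤ _
    rw [ha]
    have hex := Real.exp_pos (-((P.r i : ℝ) ^ 5))
    have h4 : sb * (e0 i * Real.exp (-((P.r i : ℝ) ^ 5))) *
        (n * Num.A1R (CK lam E) (DmS lam) (P.r i) n) ≤ 1 / (P.r i : ℝ) ^ g / 2 := by
      calc sb * (e0 i * Real.exp (-((P.r i : ℝ) ^ 5))) *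
            (n * Num.A1R (CK lam E) (DmS lam) (P.r i) n)
          ≤ 1 * (Real.exp (-(P.r i : ℝ)) * Real.exp (-((P.r i : ℝ) ^ 5))) *
            (n * Num.A1R (CK lam E) (DmS lam) (P.r i) n) := by gcongr
        _ ≤ 2 * (Real.exp (-(P.r i : ℝ)) * Real.exp (-((P.r i : ℝ) ^ 5))) *
            (n * Num.A1R (CK lam E) (DmS lam) (P.r i) n) := by
            gcongr
            norm_num
        _ ≤ _ := h2
    have h5 : (0 : ℝ) ≤ Λf ^ 2 * X.card := by positivity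
    calc sb * (e0 i * Real.exp (-((P.r i : ℝ) ^ 5))) *
          (Λf ^ 2 * (n * Num.A1R (CK lam E) (DmS lam) (P.r i) n) * X.card)
        = sb * (e0 i * Real.exp (-((P.r i : ℝ) ^ 5))) *
            (n * Num.A1R (CK lam E) (DmS lam) (P.r i) n) * (Λf ^ 2 * X.card) := by ring
      _ ≤ 1 / (P.r i : ℝ) ^ g / 2 * (Λf ^ 2 * X.card) := mul_le_mul_of_nonneg_right h4 h5

end P365V4.H376
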